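import Vale.Agent.P309C9.Main

/-!
Memory bounded learners for noiseless Gaussian linear regression: all accuracies up to `1 / 2`,
random seeds with an arbitrary joint law.
-/

namespace Vale.Agent.Results.P309.AAShared

open MeasureTheory ProbabilityTheory Vale.Agent.P309B7 Vale.Agent.P309C9

universe u

theorem result :
    (∀ d : ℕ, 1 ≤ d → ∃ (Ω : Type) (_ : MeasurableSpace Ω) (P : Measure Ω) (S : Ω → Sph d)
      (X : ℕ → Ω → Eu d) (U : ℕ → Ω → unitInterval),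
      IsShared P S X U ∧ iIndepFun U P ∧ ∀ t, P.map (U t) = volume) ∧
    ∃ C : ℝ, 0 < C ∧ ∀ C₀ : ℝ, 0 < C₀ →
    ∃ c : ℝ, 0 < c ∧ ∃ d₀ : ℕ, ∃ ε₀ : ℝ, 0 < ε₀ ∧
      ∀ d : ℕ, d₀ ≤ d → ∀ ε : ℝ, 0 < ε → ε ≤ 1 / 2 → ∀ M : ℕ, (M : ℝ) ≤ C₀ * (d : ℝ) ^ 2 →
        (∀ (T N : ℕ) (R Ω : Type u) [MeasurableSpace R] [MeasurableSpace Ω] (L : Rule d N R)
          (P : Measure Ω) (S : Ω → Sph d) (X : ℕ → Ω → Eu d) (U : ℕ → Ω → R),
          N ≤ 2 ^ M → IsShared P S X U →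
          (2 / 3 ≤ L.success T ε P S X U → c * d * Real.log (1 / ε) ≤ T) ∧
          (ε ≤ ε₀ → (T : ℝ) < c * d * Real.log (1 / ε) →
            L.success T ε P S X U ≤ ENNReal.ofReal (Real.exp (-((d : ℝ) / 16))))) ∧
        ((M : ℝ) ≤ (d - 1) * Real.logb 2 (1 / ε) - 4 * d → leastT d M ε = ⊤) ∧
        ((d - 1) * Real.logb 2 (1 / ε) + (2 * C₀ + 16) * d ≤ M →
          Real.log d * Real.log (Real.log d) ≤ Real.log (1 / ε) →
          ∃ T : ℕ, leastT d M ε = (T : ℕ∞) ∧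
            c * d * Real.log (1 / ε) ≤ T ∧ (T : ℝ) ≤ C * d * Real.log (1 / ε)) ∧
        (∀ A : ℝ, 1 ≤ A → d * Real.logb 2 (1 / ε) + (15 + A) * d ≤ M →
          ∃ T : ℕ, leastT d M ε = (T : ℕ∞) ∧ c * d * Real.log (1 / ε) ≤ T ∧
            (T : ℝ) ≤ C * d * (Real.log (1 / ε) +
              Real.log d * Real.log (1 + Real.log (1 / ε) / A))) ∧
        (d * Real.logb 2 (d / ε) + 11 * d ≤ M → ∃ T : ℕ, leastT d M ε = (T : ℕ∞) ∧
          c * d * Real.log (1 / ε) ≤ T ∧ (T : ℝ) ≤ 20 * d * Real.log (1 / ε)) := by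
  refine ⟨fun d hd => ?_, main⟩
  obtain ⟨Ω, i, P, S, X, U, h1, h2⟩ := exists_experiment hd
  exact ⟨Ω, i, P, S, X, U, of_exp h1, h1.indU, h2⟩

end Vale.Agent.Results.P309.AAShared
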